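import Mathlib.NumberTheory.Zsqrtd.GaussianInt
import Mathlib.Algebra.Polynomial.Lifts
import Mathlib.LinearAlgebra.Matrix.Determinant.Basic
import Mathlib.NumberTheory.Chebyshev
import Mathlib.Analysis.Complex.ExponentialBounds
import Mathlib.Tactic

/-! The arithmetic lower bound for a nonzero minor of the jet matrix. -/

namespace Vale.Agent.P021Z.Ar

open Polynomial

theorem one_le_norm_gauss (z : GaussianInt) (hz : (z : ℂ) ≠ 0) : 1 ≤ ‖(z : ℂ)‖ := by
  have hz' : z ≠ 0 := by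
    rintro rfl
    simp at hz
  have h1 : (1 : ℤ) ≤ z.norm := GaussianInt.norm_pos.mpr hz'
  have h2 : ((z.norm : ℤ) : ℝ) = Complex.normSq (z : ℂ) := GaussianInt.intCast_real_norm z
  have h3 : (1 : ℝ) ≤ ‖(z : ℂ)‖ ^ 2 := by
    rw [← Complex.normSq_eq_norm_sq, ← h2]
    exact_mod_cast h1
  nlinarith [norm_nonneg (z : ℂ)]

/-- A nonzero determinant with Gaussian integer entries has norm at least one. -/
theorem one_le_norm_det {ι : Type*} [Fintype ι] [DecidableEq ι] (E : Matrix ι ι ℂ)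
    (hE : ∀ i c, E i c ∈ Set.range GaussianInt.toComplex) (h : E.det ≠ 0) : 1 ≤ ‖E.det‖ := by
  choose E' hE' using hE
  have h1 : E = GaussianInt.toComplex.mapMatrix (Matrix.of E') := by
    ext i c
    simp [← hE' i c]
  have h2 : E.det = ((Matrix.of E').det : GaussianInt) := by
    rw [h1, ← RingHom.map_det]
  rw [h2] at h ⊢
  exact one_le_norm_gauss _ h

/-- The lower bound for a nonzero minor, in terms of common denominators `Δ k`. -/
theorem minor_lower {ι : Type*} [Fintype ι] [DecidableEq ι] {m : ℕ}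
    (Q : ι → Fin m → ℂ[X]) (s h : ι → ℕ) (α β : ι → Fin m → ℕ) (Δ : Fin m → ℕ)
    (hΔ : ∀ k, 0 < Δ k)
    (hQ : ∀ i k, C (Δ k : ℂ) * Q i k ∈ lifts GaussianInt.toComplex)
    (hdet : (Matrix.of fun i c => ((1 + X) ^ (h c) *
      ∏ k, C ((α c k).choose (β i k) : ℂ) * (Q i k) ^ (α c k - β i k)).coeff (s i)).det ≠ 0) :
    ∏ i, ∏ k, (Δ k : ℝ) ^ (β i k) ≤
      ‖(Matrix.of fun i c => ((1 + X) ^ (h c) *
        ∏ k, C ((α c k).choose (β i k) : ℂ) * (Q i k) ^ (α c k - β i k)).coeff (s i)).det‖ *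
      ∏ c, ∏ k, (Δ k : ℝ) ^ (α c k) := by
  set E : Matrix ι ι ℂ := Matrix.of fun i c => ((1 + X) ^ (h c) *
      ∏ k, C ((α c k).choose (β i k) : ℂ) * (Q i k) ^ (α c k - β i k)).coeff (s i) with hEdef
  set E' : Matrix ι ι ℂ := Matrix.of fun i c => ((1 + X) ^ (h c) *
      ∏ k, C ((α c k).choose (β i k) : ℂ) *
        (C (Δ k : ℂ) * Q i k) ^ (α c k - β i k)).coeff (s i) with hE'def
  set a : ι → ℂ := fun c => ∏ k, (Δ k : ℂ) ^ (α c k) with ha
  set b : ι → ℂ := fun i => ∏ k, (Δ k : ℂ) ^ (β i k) with hb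
  have hint : ∀ i c, E' i c ∈ Set.range GaussianInt.toComplex := by
    intro i c
    have : ((1 + X) ^ (h c) * ∏ k, C ((α c k).choose (β i k) : ℂ) *
        (C (Δ k : ℂ) * Q i k) ^ (α c k - β i k)) ∈ lifts GaussianInt.toComplex := by
      refine Subsemiring.mul_mem _ (Subsemiring.pow_mem _ (Subsemiring.add_mem _
        (Subsemiring.one_mem _) (X_mem_lifts _)) _) ?_
      refine Subsemiring.prod_mem _ fun k _ => Subsemiring.mul_mem _ ?_
        (Subsemiring.pow_mem _ (hQ i k) _)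
      exact C'_mem_lifts ⟨((α c k).choose (β i k) : ℕ), by simp⟩
    exact (lifts_iff_coeff_lifts _).1 this (s i)
  have hrel : ∀ i c, E i c * a c = b i * E' i c := by
    intro i c
    have key : (∏ k, C ((α c k).choose (β i k) : ℂ) * (Q i k) ^ (α c k - β i k)) * C (a c) =
        C (b i) * ∏ k, C ((α c k).choose (β i k) : ℂ) *
          (C (Δ k : ℂ) * Q i k) ^ (α c k - β i k) := by
      simp only [ha, hb, map_prod, ← Finset.prod_mul_distrib]
      refine Finset.prod_congr rfl fun k _ => ?_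
      rcases le_or_gt (β i k) (α c k) with hle | hlt
      · obtain ⟨e, he⟩ := Nat.exists_eq_add_of_le hle
        rw [he, Nat.add_sub_cancel_left, map_pow, map_pow, pow_add, mul_pow]
        ring
      · simp [Nat.choose_eq_zero_of_lt hlt]
    simp only [hEdef, hE'def, Matrix.of_apply]
    rw [← coeff_mul_C, ← coeff_C_mul, mul_assoc, key]
    congr 1
    ring
  have hdet2 : E.det * ∏ c, a c = (∏ i, b i) * E'.det := by
    have e1 : (Matrix.of fun i c => a c * E i c).det = (∏ c, a c) * E.det :=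
      Matrix.det_mul_row a E
    have e2 : (Matrix.of fun i c => b i * E' i c).det = (∏ i, b i) * E'.det :=
      Matrix.det_mul_column b E'
    rw [← e2, mul_comm, ← e1]
    congr 1
    ext i c
    simp only [Matrix.of_apply]
    rw [← hrel i c, mul_comm]
  have ha0 : ∏ c, a c ≠ 0 := by
    refine Finset.prod_ne_zero_iff.2 fun c _ => Finset.prod_ne_zero_iff.2 fun k _ => ?_
    exact pow_ne_zero _ (by exact_mod_cast (hΔ k).ne')
  have hE'0 : E'.det ≠ 0 := by
    intro h0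
    rw [h0, mul_zero] at hdet2
    exact mul_ne_zero hdet ha0 hdet2
  have h1 := one_le_norm_det E' hint hE'0
  have hna : ‖∏ c, a c‖ = ∏ c, ∏ k, (Δ k : ℝ) ^ (α c k) := by
    simp [ha]
  have hnb : ‖∏ i, b i‖ = ∏ i, ∏ k, (Δ k : ℝ) ^ (β i k) := by
    simp [hb]
  have h2 := congrArg norm hdet2
  rw [norm_mul, norm_mul, hna, hnb] at h2
  rw [h2]
  exact le_mul_of_one_le_right (by positivity) h1

/-- The polynomial `j * (2 i p / q) + G` has Gaussian integer coefficients after multiplication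
by `q * d`, when `d * G` has integer coefficients. -/
theorem centre_mem_lifts (j p : ℤ) (q d : ℕ) (hq : 0 < q) (G : ℂ[X])
    (hG : ∀ n, ∃ z : ℤ, (d : ℂ) * G.coeff n = z) :
    C ((q * d : ℕ) : ℂ) * (C ((j : ℂ) * (2 * Complex.I * ((p : ℂ) / (q : ℂ)))) + G) ∈
      lifts GaussianInt.toComplex := by
  have hq' : (q : ℂ) ≠ 0 := by exact_mod_cast hq.ne'
  rw [mul_add, ← map_mul]
  refine Subsemiring.add_mem _ (C'_mem_lifts ⟨⟨0, 2 * j * p * d⟩, ?_⟩) ?_
  · rw [GaussianInt.toComplex_def']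
    push_cast
    field_simp
    ring
  · rw [lifts_iff_coeff_lifts]
    intro n
    obtain ⟨z, hz⟩ := hG n
    refine ⟨((q * z : ℤ) : GaussianInt), ?_⟩
    rw [coeff_C_mul]
    push_cast
    rw [mul_assoc, hz]
    simp

theorem lcm_mul_int (T n : ℕ) (hn : n < T) :
    ∃ z : ℤ, ((Nat.lcmUpto T : ℕ) : ℂ) * ((-1) ^ n / ((n : ℂ) + 1)) = z := by
  have hd : n + 1 ∣ Nat.lcmUpto T := by
    unfold Nat.lcmUpto
    exact Finset.dvd_lcm (f := id) (Finset.mem_Icc.2 ⟨by omega, by omega⟩)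
  obtain ⟨e, he⟩ := hd
  refine ⟨(-1) ^ n * e, ?_⟩
  have : ((n : ℂ) + 1) ≠ 0 := by exact_mod_cast Nat.succ_ne_zero n
  rw [he]
  push_cast
  field_simp

theorem lcm_le_exp (T : ℕ) : ((Nat.lcmUpto T : ℕ) : ℝ) ≤ Real.exp (6 * T) := by
  have h1 := Chebyshev.psi_eq_log_lcmUpto T
  have h2 := Chebyshev.psi_le_const_mul_self (x := (T : ℝ)) (by positivity)
  have h3 : Real.log 4 ≤ 2 := by
    have : Real.log 4 = 2 * Real.log 2 := by
      rw [show (4 : ℝ) = 2 ^ 2 by norm_num, Real.log_pow]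
      norm_num
    have := Real.log_two_lt_d9
    linarith
  have h4 : (0 : ℝ) < (Nat.lcmUpto T : ℕ) := by exact_mod_cast Nat.lcmUpto_pos T
  rw [← Real.exp_log h4, ← h1]
  refine Real.exp_le_exp.2 (h2.trans ?_)
  have : (0 : ℝ) ≤ T := by positivity
  nlinarith

end Vale.Agent.P021Z.Ar
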