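import Vale.Agent.P021Z.Defs
import Vale.Agent.P021Z.Ar.Arith

/-! The local parametrisations are close to the leaf, and their denominators are small. -/

namespace Vale.Agent.P021Z.Ar

open Polynomial

theorem eval_logTrunc (T : ℕ) (t : ℂ) : (logTrunc T).eval t = Complex.logTaylor (T + 1) t := by
  rw [logTrunc, Complex.logTaylor, Finset.sum_range_succ', eval_finsetSum]
  simp only [Nat.cast_zero, div_zero, add_zero]
  refine Finset.sum_congr rfl fun k _ => ?_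
  simp only [eval_mul, eval_C, eval_pow, eval_X]
  push_cast
  ring

theorem norm_logTrunc_sub_le (T : ℕ) (t : ℂ) (ht : ‖t‖ ≤ 1 / 2) :
    ‖(logTrunc T).eval t - Complex.log (1 + t)‖ ≤ ‖t‖ ^ T := by
  rw [eval_logTrunc, norm_sub_rev]
  refine (Complex.norm_log_sub_logTaylor_le T (by linarith)).trans ?_
  have h0 := norm_nonneg t
  have h1 : (1 - ‖t‖)⁻¹ ≤ 2 := by
    rw [inv_le_comm₀ (by linarith) (by norm_num)]
    linarith
  have h2 : (1 : ℝ) ≤ T + 1 := by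
    have : (0 : ℝ) ≤ T := by positivity
    linarith
  have h3 : 0 ≤ (1 - ‖t‖)⁻¹ := inv_nonneg.2 (by linarith)
  calc ‖t‖ ^ (T + 1) * (1 - ‖t‖)⁻¹ / (T + 1) ≤ ‖t‖ ^ (T + 1) * (1 - ‖t‖)⁻¹ :=
        div_le_self (by positivity) h2
    _ = ‖t‖ ^ T * (‖t‖ * (1 - ‖t‖)⁻¹) := by ring
    _ ≤ ‖t‖ ^ T * (1 / 2 * 2) := by gcongr
    _ = ‖t‖ ^ T := by ring

theorem logTrunc_coeff_int (T n : ℕ) :
    ∃ z : ℤ, ((Nat.lcmUpto T : ℕ) : ℂ) * (logTrunc T).coeff n = z := by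
  rw [logTrunc, finsetSum_coeff, Finset.mul_sum]
  have : ∀ k ∈ Finset.range T, ∃ z : ℤ, ((Nat.lcmUpto T : ℕ) : ℂ) *
      (C ((-1) ^ k / ((k : ℂ) + 1)) * X ^ (k + 1)).coeff n = z := by
    intro k hk
    rw [coeff_C_mul_X_pow]
    split_ifs
    · exact lcm_mul_int T k (Finset.mem_range.1 hk)
    · exact ⟨0, by simp⟩
  choose! z hz using this
  exact ⟨∑ k ∈ Finset.range T, z k, by rw [Finset.sum_congr rfl hz]; push_cast; rfl⟩

/-- The distance from the local parametrisation to the leaf on the circle of radius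
`exp (-lam)`. -/
theorem close_to_leaf (j K T : ℕ) (hj : j < K) (x w ν ν₁ lam : ℝ) (hlam : 1 ≤ lam)
    (hx : |Real.pi - x| ≤ Real.exp (-(ν₁ * w))) (hT : ν₁ * w ≤ lam * T)
    (hw : Real.log (2 * K + 1) ≤ (ν₁ - ν) * w) (t : ℂ) (ht : ‖t‖ = Real.exp (-lam)) :
    ‖(C ((j : ℂ) * (2 * Complex.I * (x : ℂ))) + logTrunc T).eval t -
      (2 * Real.pi * Complex.I * ((j : ℤ) : ℂ) + Complex.log (1 + t))‖ ≤ Real.exp (-(ν * w)) := by
  have ht2 : ‖t‖ ≤ 1 / 2 := by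
    rw [ht]
    have h1 : Real.exp (-lam) ≤ Real.exp (-1) := Real.exp_le_exp.2 (by linarith)
    have h2 := Real.exp_neg_one_lt_d9
    linarith
  have h1 := norm_logTrunc_sub_le T t ht2
  have h2 : ‖t‖ ^ T ≤ Real.exp (-(ν₁ * w)) := by
    rw [ht, ← Real.exp_nat_mul]
    exact Real.exp_le_exp.2 (by linarith)
  have h3 : (C ((j : ℂ) * (2 * Complex.I * (x : ℂ))) + logTrunc T).eval t -
      (2 * Real.pi * Complex.I * ((j : ℤ) : ℂ) + Complex.log (1 + t)) =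
      (j : ℂ) * (2 * Complex.I) * ((x - Real.pi : ℝ) : ℂ) +
        ((logTrunc T).eval t - Complex.log (1 + t)) := by
    simp only [eval_add, eval_C]
    push_cast
    ring
  have h4 : ‖(j : ℂ) * (2 * Complex.I) * ((x - Real.pi : ℝ) : ℂ)‖ ≤
      2 * K * Real.exp (-(ν₁ * w)) := by
    rw [norm_mul, norm_mul, norm_mul, Complex.norm_real, Real.norm_eq_abs, abs_sub_comm]
    simp only [Complex.norm_natCast, Complex.norm_ofNat, Complex.norm_I, mul_one]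
    have : (j : ℝ) ≤ K := by exact_mod_cast hj.le
    calc (j : ℝ) * 2 * |Real.pi - x| ≤ K * 2 * Real.exp (-(ν₁ * w)) := by gcongr
      _ = _ := by ring
  have h5 : (2 * K + 1 : ℝ) ≤ Real.exp ((ν₁ - ν) * w) := by
    rw [← Real.exp_log (show (0 : ℝ) < 2 * K + 1 by positivity)]
    exact Real.exp_le_exp.2 hw
  rw [h3]
  calc _ ≤ 2 * K * Real.exp (-(ν₁ * w)) + Real.exp (-(ν₁ * w)) :=
        (norm_add_le _ _).trans (add_le_add h4 (h1.trans h2))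
    _ = (2 * K + 1) * Real.exp (-(ν₁ * w)) := by ring
    _ ≤ Real.exp ((ν₁ - ν) * w) * Real.exp (-(ν₁ * w)) := by gcongr
    _ = Real.exp (-(ν * w)) := by
        rw [← Real.exp_add]
        congr 1
        ring

theorem exists_mu (a b : ℝ) (n : ℕ) (hab : a < b) : ∃ μ : ℝ, 1 < μ ∧ μ ≤ 2 ∧ a * μ ^ n < b := by
  have h1 : ContinuousAt (fun μ : ℝ => a * μ ^ n) 1 := by fun_prop
  have h2 : ∀ᶠ μ in nhds (1 : ℝ), a * μ ^ n < b := by
    refine h1.eventually (gt_mem_nhds ?_)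
    simpa using hab
  have h3 : ∀ᶠ μ in nhds (1 : ℝ), μ < 2 := gt_mem_nhds (by norm_num)
  obtain ⟨μ, hμ1, hμ2⟩ := ((h2.and h3).filter_mono nhdsWithin_le_nhds).and
    (self_mem_nhdsWithin (s := Set.Ioi (1 : ℝ)) (a := 1)) |>.exists
  exact ⟨μ, hμ2, hμ1.2.le, hμ1.1⟩

/-- An infinite set of good approximations has unbounded denominators. -/
theorem unbounded_of_infinite (x ν : ℝ) (hν : 0 ≤ ν) (S : Set (ℤ × ℤ)) (hS : S.Infinite)
    (h : ∀ pq ∈ S, 2 ≤ pq.2 ∧ |x - (pq.1 : ℝ) / (pq.2 : ℝ)| < (pq.2 : ℝ) ^ (-ν)) (C : ℝ) :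
    ∃ pq ∈ S, C ≤ Real.log pq.2 := by
  by_contra hcon
  push Not at hcon
  apply hS
  set B : ℤ := ⌈Real.exp C⌉ with hB
  set B' : ℤ := ⌈(|x| + 1) * Real.exp C⌉ with hB'
  refine ((Set.finite_Icc (-B') B').prod (Set.finite_Icc 0 B)).subset ?_
  intro pq hpq
  obtain ⟨h1, h2⟩ := h pq hpq
  have hq : (2 : ℝ) ≤ pq.2 := by exact_mod_cast h1
  have hq0 : (0 : ℝ) < pq.2 := by linarith
  have h3 : (pq.2 : ℝ) ≤ Real.exp C := by
    rw [← Real.exp_log hq0]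
    exact Real.exp_le_exp.2 (hcon pq hpq).le
  have h4 : (pq.2 : ℝ) ^ (-ν) ≤ 1 :=
    Real.rpow_le_one_of_one_le_of_nonpos (by linarith) (by linarith)
  have h5 : |(pq.1 : ℝ) / (pq.2 : ℝ)| ≤ |x| + 1 := by
    have := abs_sub_abs_le_abs_sub ((pq.1 : ℝ) / (pq.2 : ℝ)) x
    rw [abs_sub_comm] at this
    linarith
  rw [abs_div, abs_of_pos hq0, div_le_iff₀ hq0] at h5
  have h6 : |(pq.1 : ℝ)| ≤ B' := by
    calc |(pq.1 : ℝ)| ≤ (|x| + 1) * pq.2 := h5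
      _ ≤ (|x| + 1) * Real.exp C := by gcongr
      _ ≤ B' := Int.le_ceil _
  have h7 : |pq.1| ≤ B' := by exact_mod_cast h6
  have h8 : pq.2 ≤ B := by
    have : (pq.2 : ℝ) ≤ B := h3.trans (Int.le_ceil _)
    exact_mod_cast this
  exact ⟨abs_le.1 h7, by omega, h8⟩

end Vale.Agent.P021Z.Ar
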