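import Mathlib.Analysis.SpecialFunctions.Pow.Real
import Mathlib.Analysis.SpecialFunctions.Exp
import Mathlib.Analysis.SpecialFunctions.Log.Basic
import Mathlib.Tactic

/-! Comparison of the upper and the lower bound for the minor. -/

namespace Vale.Agent.P021Z.Ar

open Filter Topology

/-- The comparison of the two bounds, in logarithmic form. -/
theorem combine {ι : Type*} [Fintype ι] [Nonempty ι] (n N : ℕ) (cf rf cd rd : ι → ℝ)
    (Dn X a b : ℝ) (hcf : ∀ c, 0 ≤ cf c) (hrf : ∀ i, 0 ≤ rf i) (hcd : ∀ c, 0 ≤ cd c)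
    (hrd : ∀ i, 0 < rd i)
    (hup : Dn ≤ ((Fintype.card ι).factorial : ℝ) * 2 ^ (n * Fintype.card ι) * (∏ c, cf c) *
      (∏ i, rf i) * Real.exp (-(X * ((Fintype.card ι : ℝ) - N))))
    (hlow : ∏ i, rd i ≤ Dn * ∏ c, cd c)
    (ha : ∀ c, cf c * cd c ≤ Real.exp a) (hb : ∀ i, rf i ≤ Real.exp b * rd i) :
    X * ((Fintype.card ι : ℝ) - N) ≤
      (Fintype.card ι : ℝ) * (Real.log (Fintype.card ι) + n * Real.log 2 + a + b) := by
  set M := Fintype.card ι with hM
  have hM0 : (0 : ℝ) < M := by exact_mod_cast Fintype.card_pos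
  have h1 : (∏ c, cf c) * ∏ c, cd c ≤ Real.exp (M * a) := by
    rw [← Finset.prod_mul_distrib, Real.exp_nat_mul, hM, ← Finset.card_univ,
      ← Finset.prod_const]
    exact Finset.prod_le_prod (fun c _ => mul_nonneg (hcf c) (hcd c)) fun c _ => ha c
  have h2 : ∏ i, rf i ≤ Real.exp (M * b) * ∏ i, rd i := by
    rw [Real.exp_nat_mul, hM, ← Finset.card_univ, ← Finset.prod_const,
      ← Finset.prod_mul_distrib]
    exact Finset.prod_le_prod (fun i _ => hrf i) fun i _ => hb i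
  have h3 : (M.factorial : ℝ) ≤ Real.exp (M * Real.log M) := by
    rw [Real.exp_nat_mul, Real.exp_log hM0]
    exact_mod_cast Nat.factorial_le_pow M
  have h4 : (2 : ℝ) ^ (n * M) = Real.exp (M * (n * Real.log 2)) := by
    rw [Real.exp_nat_mul, Real.exp_nat_mul, Real.exp_log (by norm_num), ← pow_mul]
  have hrd' : 0 < ∏ i, rd i := Finset.prod_pos fun i _ => hrd i
  have hcd' : 0 ≤ ∏ c, cd c := Finset.prod_nonneg fun c _ => hcd c
  have hcf' : 0 ≤ ∏ c, cf c := Finset.prod_nonneg fun c _ => hcf c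
  have hrf' : 0 ≤ ∏ i, rf i := Finset.prod_nonneg fun i _ => hrf i
  have h5 : ∏ i, rd i ≤ Real.exp (M * Real.log M + M * (n * Real.log 2) + M * a + M * b -
      X * ((M : ℝ) - N)) * ∏ i, rd i := by
    calc ∏ i, rd i ≤ Dn * ∏ c, cd c := hlow
      _ ≤ ((M.factorial : ℝ) * 2 ^ (n * M) * (∏ c, cf c) *
          (∏ i, rf i) * Real.exp (-(X * ((M : ℝ) - N)))) * ∏ c, cd c := by gcongr
      _ = (M.factorial : ℝ) * 2 ^ (n * M) * ((∏ c, cf c) * ∏ c, cd c) *
          (∏ i, rf i) * Real.exp (-(X * ((M : ℝ) - N))) := by ring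
      _ ≤ Real.exp (M * Real.log M) * Real.exp (M * (n * Real.log 2)) * Real.exp (M * a) *
          (Real.exp (M * b) * ∏ i, rd i) * Real.exp (-(X * ((M : ℝ) - N))) := by
          rw [h4]
          gcongr
      _ = _ := by
          rw [sub_eq_add_neg _ (X * ((M : ℝ) - N)), Real.exp_add, Real.exp_add, Real.exp_add,
            Real.exp_add]
          ring
  have h6 := (le_mul_iff_one_le_left hrd').1 h5
  rw [Real.one_le_exp_iff] at h6
  linarith

/-- The factor of a column. -/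
theorem column_bound {m : ℕ} (h : ℕ) (α : Fin m → ℕ) (w : Fin m → ℝ) (Δ : Fin m → ℝ)
    (R w0 η H : ℝ) (hR : 0 < R) (hη : 0 ≤ η) (hw0 : 0 ≤ w0)
    (hRw : R ≤ η * w0) (h8 : ∀ k, Real.log (8 * R) ≤ η * w k) (hΔ0 : ∀ k, 0 ≤ Δ k)
    (hΔ : ∀ k, Δ k ≤ Real.exp ((1 + 2 * η) * w k))
    (hH : w0 * h + ∑ k, w k * α k ≤ H) :
    (Real.exp (h * R) * (8 * R) ^ (∑ k, α k)) * ∏ k, Δ k ^ α k ≤
      Real.exp ((1 + 3 * η) * H) := by
  have h1 : (8 * R) ^ (∑ k, α k) * ∏ k, Δ k ^ α k ≤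
      Real.exp ((1 + 3 * η) * ∑ k, w k * α k) := by
    rw [← Finset.prod_pow_eq_pow_sum, ← Finset.prod_mul_distrib, Finset.mul_sum, Real.exp_sum]
    refine Finset.prod_le_prod (fun k _ => by have := hΔ0 k; positivity) fun k _ => ?_
    rw [← mul_pow, show (1 + 3 * η) * (w k * α k) = α k * ((1 + 3 * η) * w k) by ring,
      Real.exp_nat_mul]
    refine pow_le_pow_left₀ (by have := hΔ0 k; positivity) ?_ _
    have e1 : 8 * R ≤ Real.exp (η * w k) := by
      rw [← Real.exp_log (show 0 < 8 * R by positivity)]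
      exact Real.exp_le_exp.2 (h8 k)
    calc 8 * R * Δ k ≤ Real.exp (η * w k) * Real.exp ((1 + 2 * η) * w k) := by
          have := hΔ0 k
          gcongr
          exact hΔ k
      _ = Real.exp ((1 + 3 * η) * w k) := by
          rw [← Real.exp_add]
          congr 1
          ring
  have h2 : (h : ℝ) * R ≤ (1 + 3 * η) * (w0 * h) := by
    have : (0 : ℝ) ≤ h := by positivity
    have h3 : 0 ≤ w0 * h := by positivity
    nlinarith [mul_le_mul_of_nonneg_left hRw this]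
  rw [mul_assoc]
  calc Real.exp (h * R) * ((8 * R) ^ (∑ k, α k) * ∏ k, Δ k ^ α k)
      ≤ Real.exp ((1 + 3 * η) * (w0 * h)) * Real.exp ((1 + 3 * η) * ∑ k, w k * α k) := by
        have : 0 ≤ (8 * R) ^ (∑ k, α k) * ∏ k, Δ k ^ α k :=
          mul_nonneg (by positivity) (Finset.prod_nonneg fun k _ => pow_nonneg (hΔ0 k) _)
        gcongr
    _ ≤ Real.exp ((1 + 3 * η) * H) := by
        rw [← Real.exp_add, ← mul_add]
        gcongr

/-- The factor of a row. -/
theorem row_bound {m : ℕ} (s : ℕ) (β : Fin m → ℕ) (w : Fin m → ℝ) (Δ : Fin m → ℝ)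
    (lam v0 η ν θ H : ℝ) (hη : 0 ≤ η) (hv0 : 0 ≤ v0) (hw : ∀ k, 0 ≤ w k) (hθ : 0 < θ)
    (hν : 1 ≤ ν) (hlam : lam ≤ η * v0) (hΔ : ∀ k, Real.exp (w k) ≤ Δ k)
    (hH : v0 * s + ∑ k, w k / θ * β k ≤ H) :
    Real.exp (lam * s) * Real.exp (ν * ∑ k, w k * β k) ≤
      Real.exp ((η + (ν - 1) * θ) * H) * ∏ k, Δ k ^ β k := by
  have h1 : Real.exp (∑ k, w k * β k) ≤ ∏ k, Δ k ^ β k := by
    rw [Real.exp_sum]
    refine Finset.prod_le_prod (fun k _ => by positivity) fun k _ => ?_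
    rw [mul_comm, Real.exp_nat_mul]
    exact pow_le_pow_left₀ (by positivity) (hΔ k) _
  have h2 : ∑ k, w k / θ * β k = (∑ k, w k * β k) / θ := by
    rw [Finset.sum_div]
    exact Finset.sum_congr rfl fun k _ => by ring
  set b := ∑ k, w k * β k with hb
  have hb0 : 0 ≤ b := Finset.sum_nonneg fun k _ => by have := hw k; positivity
  have hs0 : 0 ≤ v0 * s := by positivity
  have hbθ : 0 ≤ b / θ := by positivity
  rw [h2] at hH
  have h3 : b ≤ θ * H := by
    have : b / θ ≤ H := by linarith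
    rwa [div_le_iff₀ hθ, mul_comm] at this
  have h4 : lam * s ≤ η * H := by
    have e1 : lam * s ≤ η * v0 * s := by gcongr
    have e2 : v0 * s ≤ H := by linarith
    nlinarith [mul_le_mul_of_nonneg_left e2 hη]
  calc Real.exp (lam * s) * Real.exp (ν * b)
      = Real.exp (lam * s + (ν - 1) * b) * Real.exp b := by
        rw [← Real.exp_add, ← Real.exp_add]
        congr 1
        ring
    _ ≤ Real.exp ((η + (ν - 1) * θ) * H) * ∏ k, Δ k ^ β k := by
        gcongr
        nlinarith [mul_le_mul_of_nonneg_left h3 (sub_nonneg.2 hν)]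

/-- A quantity of polynomial growth has a small logarithm. -/
theorem eventually_log_le (c S c' η : ℝ) (n : ℕ) (hc : 0 < c) (hS : 0 ≤ S) (hη : 0 < η) :
    ∃ H1 : ℝ, ∀ H : ℝ, H1 ≤ H → ∀ M : ℝ, 0 < M → M ≤ c * (H + S) ^ n →
      Real.log M + c' ≤ η * H := by
  set c2 := c * (n.factorial * (2 / η) ^ n) with hc2
  have hc20 : 0 < c2 := by positivity
  refine ⟨max 0 ((Real.log c2 + η * S / 2 + c') * (2 / η)), fun H hH M hM hMc => ?_⟩
  have hH0 : 0 ≤ H := (le_max_left _ _).trans hH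
  have hH1 : (Real.log c2 + η * S / 2 + c') * (2 / η) ≤ H := (le_max_right _ _).trans hH
  have h1 := Real.pow_div_factorial_le_exp (η / 2 * (H + S)) (by positivity) n
  rw [div_le_iff₀ (by positivity)] at h1
  have h2 : (H + S) ^ n = (2 / η) ^ n * (η / 2 * (H + S)) ^ n := by
    rw [← mul_pow]
    congr 1
    field_simp
  have h3 : M ≤ c2 * Real.exp (η / 2 * (H + S)) := by
    calc M ≤ c * (H + S) ^ n := hMc
      _ = c * ((2 / η) ^ n * (η / 2 * (H + S)) ^ n) := by rw [h2]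
      _ ≤ c * ((2 / η) ^ n * (Real.exp (η / 2 * (H + S)) * n.factorial)) := by gcongr
      _ = c2 * Real.exp (η / 2 * (H + S)) := by rw [hc2]; ring
  have h4 : Real.log M ≤ Real.log c2 + η / 2 * (H + S) := by
    calc Real.log M ≤ Real.log (c2 * Real.exp (η / 2 * (H + S))) := Real.log_le_log hM h3
      _ = _ := by rw [Real.log_mul hc20.ne' (Real.exp_pos _).ne', Real.log_exp]
  have h5 : Real.log c2 + η * S / 2 + c' ≤ η / 2 * H := by
    have := mul_le_mul_of_nonneg_right hH1 (show 0 ≤ η / 2 by positivity)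
    have e : (Real.log c2 + η * S / 2 + c') * (2 / η) * (η / 2) =
        Real.log c2 + η * S / 2 + c' := by field_simp
    linarith
  linarith

/-- A shift of the argument does not change the leading term. -/
theorem eventually_shift_le (a b S : ℝ) (n : ℕ) (hab : a < b) :
    ∃ H2 : ℝ, ∀ H : ℝ, H2 ≤ H → a * (H + S) ^ n ≤ b * H ^ n := by
  have h1 : Tendsto (fun H : ℝ => a * (1 + S / H) ^ n) atTop (𝓝 (a * (1 + 0) ^ n)) :=
    (((tendsto_const_nhds.div_atTop tendsto_id).const_add 1).pow n).const_mul a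
  rw [add_zero, one_pow, mul_one] at h1
  have h2 := (h1.eventually (gt_mem_nhds hab)).and (eventually_gt_atTop (0 : ℝ))
  obtain ⟨H2, hH2⟩ := eventually_atTop.1 h2
  refine ⟨H2, fun H hH => ?_⟩
  obtain ⟨h3, h4⟩ := hH2 H hH
  have h5 : (H + S) ^ n = (1 + S / H) ^ n * H ^ n := by
    rw [← mul_pow]
    congr 1
    field_simp
  rw [h5, ← mul_assoc]
  have : 0 ≤ H ^ n := by positivity
  gcongr

end Vale.Agent.P021Z.Ar
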