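import Mathlib.Analysis.SpecialFunctions.Pow.Real
import Mathlib.Analysis.Complex.ExponentialBounds
import Mathlib.Analysis.Real.Pi.Bounds
import Mathlib.Tactic

/-! The choice of the parameters. -/

namespace Vale.Agent.P021Z.Ar

/-- The parameters that do not depend on the number of variables. -/
theorem params0 (ν : ℝ) (hν : 2 < ν) :
    ∃ θ A η : ℝ, 0 < θ ∧ θ < A ∧ A ^ 2 < θ ∧ A < 1 ∧ 0 < η ∧ η ≤ 1 / 2 ∧
      1 + (ν - 1) * θ + 8 * η ≤ ν * A * (1 - η) := by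
  have h1 : 0 < ν - 1 := by linarith
  have h2 : 1 / (ν - 1) < 1 := by
    rw [div_lt_one h1]
    linarith
  obtain ⟨σ, hσ1, hσ2⟩ := exists_between h2
  have hσ0 : 0 < σ := lt_trans (by positivity) hσ1
  have hσ3 : 1 < (ν - 1) * σ := by
    rw [div_lt_iff₀ h1] at hσ1
    linarith
  have h3 : (1 + (ν - 1) * σ ^ 2) / ν < σ := by
    rw [div_lt_iff₀ (by linarith)]
    nlinarith [mul_pos (sub_pos.2 hσ2) (sub_pos.2 hσ3)]
  obtain ⟨A, hA1, hA2⟩ := exists_between h3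
  rw [div_lt_iff₀ (by linarith)] at hA1
  have hθ1 : σ ^ 2 < 1 := by nlinarith
  have hθA : σ ^ 2 < A := by nlinarith
  have hA0 : 0 < A := lt_trans (by positivity) hθA
  set g := ν * A - 1 - (ν - 1) * σ ^ 2 with hg
  have hg0 : 0 < g := by
    rw [hg]
    linarith
  have hden : 0 < 8 + ν * A := by positivity
  refine ⟨σ ^ 2, A, min (1 / 2) (g / (8 + ν * A)), by positivity, hθA, by nlinarith,
    by linarith, lt_min (by norm_num) (by positivity), min_le_left _ _, ?_⟩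
  have h4 : min (1 / 2) (g / (8 + ν * A)) ≤ g / (8 + ν * A) := min_le_right _ _
  rw [le_div_iff₀ hden] at h4
  nlinarith

/-- The number of variables, the number of centres and the weight of `Y`. -/
theorem params1 (ν θ A η v0 : ℝ) (hν : 1 ≤ ν) (hθ : 0 < θ) (hθA : θ < A) (hA2 : A ^ 2 < θ)
    (hA1 : A < 1) (hη : 0 < η) (hη1 : η ≤ 1) (hv0 : 1 ≤ v0) :
    ∃ (m K : ℕ) (w0 : ℝ), 0 < K ∧ K * θ ^ m * w0 < v0 ∧ v0 ≤ w0 ∧
      ν * A ^ (m + 1) * v0 < η * K * θ ^ m ∧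
      2 * (2 * Real.pi * K + 1) * Real.exp 1 ≤ η * w0 := by
  have hA0 : 0 < A := lt_trans hθ hθA
  have hr : A ^ 2 / θ < 1 := by rwa [div_lt_one hθ]
  have hpos : 0 < η ^ 3 / (160 * ν ^ 2 * v0) := by positivity
  obtain ⟨m, hm⟩ := exists_pow_lt_of_lt_one hpos hr
  set B := (A / θ) ^ m with hB
  have hB1 : 1 ≤ B := one_le_pow₀ (by rw [le_div_iff₀ hθ]; linarith)
  have hBθ : B * θ ^ m = A ^ m := by
    rw [hB, div_pow, div_mul_cancel₀ _ (by positivity)]
  have hBB : B * B * θ ^ m = (A ^ 2 / θ) ^ m := by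
    rw [hB, ← mul_pow, ← mul_pow]
    congr 1
    field_simp
  set y := ν * v0 * B / η with hy
  have hyv : v0 ≤ y := by
    rw [hy, le_div_iff₀ hη]
    have : 1 ≤ ν * B := by nlinarith
    nlinarith
  have hy1 : 1 ≤ y := hv0.trans hyv
  set K := ⌊y⌋₊ + 1 with hK
  have hK1 : y < K := by
    rw [hK]
    push_cast
    exact Nat.lt_floor_add_one y
  have hK2 : (K : ℝ) ≤ 2 * y := by
    rw [hK]
    push_cast
    have := Nat.floor_le (show 0 ≤ y by linarith)
    linarith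
  have hK3 : (1 : ℝ) ≤ K := by linarith
  have hθm : 0 < θ ^ m := by positivity
  refine ⟨m, K, 40 * K / η, by omega, ?_, ?_, ?_, ?_⟩
  · rw [lt_div_iff₀ (by positivity), ← hBB] at hm
    have e1 : (K : ℝ) * θ ^ m * (40 * K / η) = 40 * (K * K) * θ ^ m / η := by ring
    have e2 : (K : ℝ) * K ≤ (2 * y) * (2 * y) := by gcongr
    have e3 : 40 * ((2 * y) * (2 * y)) * θ ^ m / η =
        v0 * (B * B * θ ^ m * (160 * ν ^ 2 * v0) / η ^ 3) := by
      rw [hy]
      field_simp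
      ring
    have e4 : B * B * θ ^ m * (160 * ν ^ 2 * v0) / η ^ 3 < 1 := by
      rwa [div_lt_one (by positivity)]
    calc (K : ℝ) * θ ^ m * (40 * K / η) = 40 * (K * K) * θ ^ m / η := e1
      _ ≤ 40 * ((2 * y) * (2 * y)) * θ ^ m / η := by gcongr
      _ = v0 * (B * B * θ ^ m * (160 * ν ^ 2 * v0) / η ^ 3) := e3
      _ < v0 := by nlinarith
  · rw [le_div_iff₀ hη]
    nlinarith
  · have e1 : ν * v0 * B < η * K := by
      rw [hy, div_lt_iff₀ hη] at hK1
      linarith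
    have e2 : ν * A ^ (m + 1) * v0 = (ν * v0 * B) * θ ^ m * A := by
      rw [pow_succ, ← hBθ]
      ring
    have e3 : 0 < (ν * v0 * B) * θ ^ m := by positivity
    calc ν * A ^ (m + 1) * v0 = (ν * v0 * B) * θ ^ m * A := e2
      _ < (ν * v0 * B) * θ ^ m := by nlinarith
      _ ≤ η * K * θ ^ m := by gcongr
  · have e1 : η * (40 * K / η) = 40 * K := by field_simp
    rw [e1]
    have h1 := Real.exp_one_lt_d9
    have h2 := Real.pi_lt_d2
    have h3 : 2 * Real.pi * K + 1 ≤ 7.3 * K := by nlinarith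
    have h4 : 0 ≤ 2 * Real.pi * K + 1 := by positivity
    calc 2 * (2 * Real.pi * K + 1) * Real.exp 1 ≤ 2 * (7.3 * K) * 2.72 := by
          gcongr
          linarith
      _ ≤ 40 * K := by nlinarith

/-- All parameters. `ν₁` is the exponent of the approximations, `ν` the one that is used. -/
theorem params (ν ν₁ : ℝ) (hν : 2 < ν) (hν₁ : ν ≤ ν₁) :
    ∃ (θ A η φ lam v0 w0 : ℝ) (m K : ℕ), 0 < θ ∧ θ < 1 ∧ 0 < A ∧ 0 < η ∧ η ≤ 1 / 2 ∧ 0 < φ ∧
      1 ≤ v0 ∧ 0 < K ∧ 1 + (ν - 1) * θ + 8 * η ≤ ν * A * (1 - η) ∧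
      K * θ ^ m * w0 < v0 ∧ v0 ≤ w0 ∧ ν * A ^ (m + 1) * v0 < η * K * θ ^ m ∧
      2 * (2 * Real.pi * K + 1) * Real.exp 1 ≤ η * w0 ∧
      6 * φ ≤ η ∧ lam * φ = ν₁ ∧ lam ≤ η * v0 ∧ 1 ≤ φ * v0 * θ ∧ 1 ≤ lam := by
  obtain ⟨θ, A, η, hθ, hθA, hA2, hA1, hη, hη1, hmain⟩ := params0 ν hν
  set φ := η / 6 with hφ
  have hφ0 : 0 < φ := by positivity
  set lam := ν₁ / φ with hlam
  have hlam1 : 1 ≤ lam := by
    rw [hlam, le_div_iff₀ hφ0, hφ]
    linarith
  set v0 := 1 + lam / η + 1 / (φ * θ) with hv0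
  have h1 : 0 < lam / η := by positivity
  have h2 : 0 < 1 / (φ * θ) := by positivity
  obtain ⟨m, K, w0, hK, h3, h4, h5, h6⟩ := params1 ν θ A η v0 (by linarith) hθ hθA hA2 hA1 hη
    (by linarith) (by linarith)
  refine ⟨θ, A, η, φ, lam, v0, w0, m, K, hθ, by linarith, by linarith, hη, hη1, hφ0,
    by linarith, hK, hmain, h3, h4, h5, h6, by rw [hφ]; linarith, ?_, ?_, ?_, hlam1⟩
  · rw [hlam]
    field_simp
  · have : lam / η ≤ v0 := by linarith
    rw [div_le_iff₀ hη] at this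
    linarith
  · have : 1 / (φ * θ) ≤ v0 := by linarith
    rw [div_le_iff₀ (by positivity)] at this
    linarith

/-- A rapidly increasing family of good denominators. -/
theorem exists_separated {P : ℤ → ℕ → Prop}
    (h : ∀ C : ℝ, ∃ (p : ℤ) (q : ℕ), C ≤ Real.log q ∧ P p q) (m : ℕ) (C : ℝ) :
    ∃ (p : Fin m → ℤ) (q : Fin m → ℕ), (∀ k, P (p k) (q k)) ∧ (∀ k, C ≤ Real.log (q k)) ∧
      ∀ k k', k < k' → C * Real.log (q k) ≤ Real.log (q k') := by
  choose fp fq hf using h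
  let x : ℕ → ℝ := fun n => Nat.rec C
    (fun _ y => max C (max (C * Real.log (fq y)) (Real.log (fq y)))) n
  have hx0 : ∀ n, C ≤ x n := by
    intro n
    cases n with
    | zero => exact le_rfl
    | succ n => exact le_max_left _ _
  have hx1 : ∀ n, C * Real.log (fq (x n)) ≤ Real.log (fq (x (n + 1))) := fun n =>
    ((le_max_left _ _).trans (le_max_right _ _)).trans (hf (x (n + 1))).1
  have hx2 : ∀ n, Real.log (fq (x n)) ≤ Real.log (fq (x (n + 1))) := fun n =>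
    ((le_max_right _ _).trans (le_max_right _ _)).trans (hf (x (n + 1))).1
  have hmono : Monotone fun n => Real.log (fq (x n)) := monotone_nat_of_le_succ hx2
  refine ⟨fun k => fp (x k), fun k => fq (x k), fun k => (hf _).2,
    fun k => (hx0 k).trans (hf _).1, fun k k' hk => (hx1 k).trans ?_⟩
  exact hmono (show (k : ℕ) + 1 ≤ (k' : ℕ) from hk)

end Vale.Agent.P021Z.Ar
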