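import Vale.Agent.P021Z.Defs
import Vale.Agent.P021Z.Count
import Vale.Agent.P021Z.An.Bridge
import Vale.Agent.P021Z.An.DetBound
import Vale.Agent.P021Z.Ar.Arith
import Vale.Agent.P021Z.Ar.Params
import Vale.Agent.P021Z.Ar.Endgame
import Vale.Agent.P021Z.Ar.Approx

/-! The contradiction between the upper and the lower bound for a nonzero minor. -/

namespace Vale.Agent.P021Z.Ar

open MvPolynomial

/-- The inequality that a nonzero minor of the jet matrix forces. -/
theorem minor_ineq {ι : Type*} [Fintype ι] [DecidableEq ι] [Nonempty ι] {m K : ℕ}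
    (p : Fin m → ℤ) (q T : Fin m → ℕ) (ν ν₁ θ η φ lam v0 w0 H Z : ℝ) (N : ℕ)
    (hν : 1 ≤ ν) (hθ : 0 < θ) (hη : 0 < η) (hv0 : 0 ≤ v0) (hZ : 0 ≤ Z)
    (hR : 2 * (2 * Real.pi * K + 1) * Real.exp 1 ≤ η * w0) (hφ : 6 * φ ≤ η)
    (hlam : lam * φ = ν₁) (hlamv : lam ≤ η * v0) (hlam1 : 1 ≤ lam)
    (hq : ∀ k, 0 < q k)
    (happ : ∀ k, |Real.pi - (p k : ℝ) / (q k : ℝ)| ≤ Real.exp (-(ν₁ * Real.log (q k))))
    (hT1 : ∀ k, φ * Real.log (q k) ≤ T k) (hT2 : ∀ k, (T k : ℝ) ≤ φ * Real.log (q k) + 1)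
    (hw1 : ∀ k, 6 ≤ η * Real.log (q k))
    (hw2 : ∀ k, Real.log (8 * (2 * (2 * Real.pi * K + 1) * Real.exp 1)) ≤ η * Real.log (q k))
    (hw3 : ∀ k, Real.log (2 * K + 1) ≤ (ν₁ - ν) * Real.log (q k))
    (j : ι → ℕ) (hj : ∀ i, j i < K) (β α : ι → Fin (m + 1) →₀ ℕ)
    (hβ : ∀ i, v0 * β i 0 + ∑ k : Fin m, Real.log (q k) / θ * β i k.succ ≤ H)
    (hα : ∀ c, w0 * α c 0 + ∑ k : Fin m, Real.log (q k) * α c k.succ ≤ H)
    (hN : ∀ F : Finset ((Fin m → ℕ) × ℕ),
      (∀ a ∈ F, ν * (∑ k, Real.log (q k) * a.1 k) + 1 * a.2 < Z) → F.card ≤ N)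
    (hdet : (Matrix.of fun i c => coeff (β i)
      (phi (fun k => 2 * Complex.I * ((p k : ℂ) / (q k : ℂ))) T (j i) (monomial (α c) 1))).det ≠
        0) :
    Z * ((Fintype.card ι : ℝ) - N) ≤ (Fintype.card ι : ℝ) * (Real.log (Fintype.card ι) +
      ((m + 1 : ℕ) : ℝ) * Real.log 2 + (1 + 3 * η) * H + (η + (ν - 1) * θ) * H) := by
  set w : Fin m → ℝ := fun k => Real.log (q k) with hw
  set Rr := 2 * (2 * Real.pi * K + 1) * Real.exp 1 with hRr
  set Q : ι → Fin m → Polynomial ℂ := fun i k =>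
    Polynomial.C ((j i : ℂ) * (2 * Complex.I * ((p k : ℂ) / (q k : ℂ)))) + logTrunc (T k) with hQ
  set Δ : Fin m → ℕ := fun k => q k * Nat.lcmUpto (T k) with hΔ
  have hw0 : ∀ k, 0 ≤ w k := fun k => Real.log_natCast_nonneg _
  have hr0 : 0 ≤ 2 * Real.pi * K := by positivity
  have hRr1 : 1 ≤ Rr := by
    have := Real.add_one_le_exp (1 : ℝ)
    rw [hRr]
    nlinarith
  have hw00 : 0 ≤ w0 := by
    by_contra hneg
    push Not at hneg
    nlinarith
  have hexp : ∀ k, Real.exp (w k) = q k := fun k =>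
    Real.exp_log (by exact_mod_cast hq k)
  simp only [coeff_phi_monomial] at hdet
  have hlow := minor_lower Q (fun i => β i 0) (fun c => α c 0) (fun c k => α c k.succ)
    (fun i k => β i k.succ) Δ (fun k => Nat.mul_pos (hq k) (Nat.lcmUpto_pos _))
    (fun i k => by
      have := centre_mem_lifts (j i) (p k) (q k) (Nat.lcmUpto (T k)) (hq k) (logTrunc (T k))
        (logTrunc_coeff_int (T k))
      rwa [Int.cast_natCast] at this) hdet
  have hup := An.det_bound Q (fun i => (j i : ℤ)) (fun i => β i 0) (fun c => α c 0)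
    (fun c k => α c k.succ) (fun i k => β i k.succ) w ν (Real.exp (-lam)) 1
    (2 * Real.pi * K + 1) Rr Z N (Real.exp_pos _)
    (by
      have h1 : Real.exp (-lam) ≤ Real.exp (-1) := Real.exp_le_exp.2 (by linarith)
      have h2 := Real.exp_neg_one_lt_d9
      linarith)
    (fun k => mul_nonneg (by linarith) (hw0 k)) (by norm_num) hZ hRr1 (by positivity)
    (fun i => by
      have : |(((j i : ℕ) : ℤ) : ℝ)| ≤ K := by
        rw [Int.cast_natCast, Nat.abs_cast]
        exact_mod_cast (hj i).le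
      have h2 := Real.pi_pos
      gcongr)
    le_rfl
    (fun i k t ht => by
      have h1 : ν₁ * w k ≤ lam * T k := by
        rw [← hlam, mul_assoc]
        exact mul_le_mul_of_nonneg_left (hT1 k) (by linarith)
      have := close_to_leaf (j i) K (T k) (hj i) ((p k : ℝ) / (q k : ℝ)) (w k) ν ν₁ lam hlam1
        (happ k) h1 (hw3 k) t ht
      simpa only [hQ, Complex.ofReal_div, Complex.ofReal_intCast, Complex.ofReal_natCast]
        using this)
    hN
  have hΔ1 : ∀ k, Real.exp (w k) ≤ (Δ k : ℝ) := by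
    intro k
    rw [hexp, hΔ]
    exact_mod_cast Nat.le_mul_of_pos_right _ (Nat.lcmUpto_pos _)
  have hΔ2 : ∀ k, (Δ k : ℝ) ≤ Real.exp ((1 + 2 * η) * w k) := by
    intro k
    have h1 := lcm_le_exp (T k)
    have h2 : 6 * (T k : ℝ) ≤ 2 * η * w k := by
      have := hT2 k
      have := hw1 k
      nlinarith [mul_le_mul_of_nonneg_right hφ (hw0 k)]
    calc (Δ k : ℝ) = Real.exp (w k) * (Nat.lcmUpto (T k) : ℕ) := by
          rw [hexp, hΔ]
          push_cast
          rfl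
      _ ≤ Real.exp (w k) * Real.exp (2 * η * w k) := by
          gcongr
          exact h1.trans (Real.exp_le_exp.2 h2)
      _ = _ := by
          rw [← Real.exp_add]
          congr 1
          ring
  have hΔ0 : ∀ k, (0 : ℝ) < Δ k := fun k => (Real.exp_pos _).trans_le (hΔ1 k)
  refine combine (m + 1) N _ _ (fun c => ∏ k, (Δ k : ℝ) ^ (α c k.succ))
    (fun i => ∏ k, (Δ k : ℝ) ^ (β i k.succ)) _ Z _ _ (fun c => by positivity)
    (fun i => by positivity) (fun c => by positivity)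
    (fun i => Finset.prod_pos fun k _ => pow_pos (hΔ0 k) _) hup hlow (fun c => ?_) (fun i => ?_)
  · exact column_bound (α c 0) (fun k => α c k.succ) w (fun k => (Δ k : ℝ)) Rr w0 η H
      (by linarith) hη.le hw00 hR hw2 (fun k => (hΔ0 k).le) hΔ2 (hα c)
  · have := row_bound (β i 0) (fun k => β i k.succ) w (fun k => (Δ k : ℝ)) lam v0 η ν θ H hη.le
      hv0 hw0 hθ hν hlamv hΔ1 (hβ i)
    rwa [← Real.exp_nat_mul, ← Real.exp_neg,
      show -((β i 0 : ℝ) * -lam) = lam * (β i 0 : ℝ) by ring]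

/-- The statement of the zero estimate that is used here. -/
def MinorStatement : Prop :=
  ∀ {m K : ℕ} (_ : 0 < m) {θ : ℝ} {w v : Fin (m + 1) → ℝ} {r : Fin m → ℂ}
    {T : Fin m → ℕ} (_ : Setup θ w v r T) {μ0 : ℝ} (_ : 1 < μ0) (_ : μ0 ≤ 2)
    (_ : (K : ℝ) * μ0 ^ (m + 1) * θ ^ m * w 0 < v 0)
    (_ : ∀ i l, i < l → v i < ((μ0 - 1) / (2 * (m + 2) ^ 2)) ^ (m + 1) * θ ^ m * w l),
    ∃ H0 : ℝ, ∀ H, H0 ≤ H → ∃ col : Fin K × ↥(simplex v H) → (Fin (m + 1) →₀ ℕ),
      (∀ c, wt w (col c) ≤ H) ∧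
      (Matrix.of fun ρ c : Fin K × ↥(simplex v H) =>
        coeff ρ.2.1 (phi r T ρ.1 (monomial (col c) 1))).det ≠ 0

theorem final_ineq {ν A η θ M H : ℝ} (_ : 1 + (ν - 1) * θ + 8 * η ≤ ν * A * (1 - η))
    (e4 : 0 < η * (M * H))
    (e1 : ν * A * H * (M - η * M) ≤ M * (η * H + (1 + 3 * η) * H + (η + (ν - 1) * θ) * H))
    (e3 : (1 + (ν - 1) * θ + 8 * η) * (M * H) ≤ ν * A * (1 - η) * (M * H)) : False := by
  linarith

set_option maxHeartbeats 1000000 in
theorem core (hZE : MinorStatement) (ν₁ : ℝ) (hν₁ : 2 < ν₁)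
    (happ : ∀ C : ℝ, ∃ (p : ℤ) (q : ℕ), C ≤ Real.log q ∧
      (0 < q ∧ |Real.pi - (p : ℝ) / (q : ℝ)| ≤ Real.exp (-(ν₁ * Real.log q)))) : False := by
  classical
  set ν := (ν₁ + 2) / 2 with hνdef
  have hν : 2 < ν := by rw [hνdef]; linarith
  have hνν : 0 < ν₁ - ν := by rw [hνdef]; linarith
  obtain ⟨θ, A, η, φ, lam, v0, w0, m, K, hθ, hθ1, hA, hη, hη1, hφ0, hv0, hK, hmain, hvol, hvw,
    hNM, hR, hφ, hlam, hlamv, hTv, hlam1⟩ := params ν ν₁ hν (by linarith)
  have hK1 : (1 : ℝ) ≤ K := by exact_mod_cast hK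
  have hm : 0 < m := by
    rcases Nat.eq_zero_or_pos m with h0 | h0
    · subst h0
      simp only [pow_zero, mul_one] at hvol
      nlinarith
    · exact h0
  obtain ⟨μ0, hμ1, hμ2, hμ⟩ := exists_mu (K * θ ^ m * w0) v0 (m + 1) hvol
  set c : ℝ := ((μ0 - 1) / (2 * (m + 2) ^ 2)) ^ (m + 1) * θ ^ m with hc
  have hc0 : 0 < c := by
    have : 0 < μ0 - 1 := by linarith
    positivity
  set L8 := Real.log (8 * (2 * (2 * Real.pi * K + 1) * Real.exp 1)) with hL8
  set L2 := Real.log (2 * K + 1) with hL2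
  set C : ℝ := 1 + 1 / (θ * c) + v0 / c + |L8| / η + 6 / η + |L2| / (ν₁ - ν) with hC
  have c1 : 0 < 1 / (θ * c) := by positivity
  have c2 : 0 < v0 / c := by positivity
  have c3 : 0 ≤ |L8| / η := by positivity
  have c4 : 0 < 6 / η := by positivity
  have c5 : 0 ≤ |L2| / (ν₁ - ν) := by positivity
  obtain ⟨p, q, hpq, hqC, hsep⟩ := exists_separated happ m C
  set wq : Fin m → ℝ := fun k => Real.log (q k) with hwq
  have hwq1 : ∀ k, 1 ≤ wq k := fun k => le_trans (by linarith) (hqC k)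
  have hwq0 : ∀ k, 0 < wq k := fun k => lt_of_lt_of_le one_pos (hwq1 k)
  set T : Fin m → ℕ := fun k => ⌈φ * wq k⌉₊ with hT
  have hT1 : ∀ k, φ * wq k ≤ T k := fun k => Nat.le_ceil _
  have hT2 : ∀ k, (T k : ℝ) ≤ φ * wq k + 1 := fun k =>
    (Nat.ceil_lt_add_one (mul_pos hφ0 (hwq0 k)).le).le
  set r : Fin m → ℂ := fun k => 2 * Complex.I * ((p k : ℂ) / (q k : ℂ)) with hr
  set w : Fin (m + 1) → ℝ := Fin.cons w0 wq with hw
  set v : Fin (m + 1) → ℝ := Fin.cons v0 (fun k => wq k / θ) with hv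
  have hvpos : ∀ i, 0 < v i := by
    intro i
    refine Fin.cases ?_ (fun k => ?_) i
    · simp only [hv, Fin.cons_zero]
      linarith
    · simp only [hv, Fin.cons_succ]
      exact div_pos (hwq0 k) hθ
  have hS : Setup θ w v r T := by
    refine ⟨hθ, hθ1, fun i => ?_, hvpos, hvw, fun k => rfl, fun k => ?_, fun k => ?_⟩
    · refine Fin.cases ?_ (fun k => ?_) i
      · simp only [hw, Fin.cons_zero]
        linarith
      · exact hwq0 k
    · simp only [hv, Fin.cons_succ, Fin.cons_zero]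
      rw [div_le_iff₀ hθ]
      have h1 : wq k ≤ φ * v0 * θ * wq k := le_mul_of_one_le_left (hwq0 k).le hTv
      have h2 : φ * wq k * (v0 * θ) ≤ (T k + 1) * (v0 * θ) := by
        have := hT1 k
        gcongr
        linarith
      nlinarith
    · have hp : p k ≠ 0 := by
        intro h0
        have h1 := (hpq k).2
        rw [h0, Int.cast_zero, zero_div, sub_zero, abs_of_pos Real.pi_pos] at h1
        have h2 : Real.exp (-(ν₁ * Real.log (q k))) ≤ 1 := by
          rw [Real.exp_le_one_iff]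
          have := hwq0 k
          simp only [hwq] at this
          nlinarith
        linarith [Real.pi_gt_three]
      have hq : (q k : ℂ) ≠ 0 := by exact_mod_cast (hpq k).1.ne'
      have hp' : (p k : ℂ) ≠ 0 := by exact_mod_cast hp
      exact mul_ne_zero (mul_ne_zero two_ne_zero Complex.I_ne_zero) (div_ne_zero hp' hq)
  have hsep' : ∀ i l, i < l → v i < c * w l := by
    intro i l hil
    rcases Fin.eq_zero_or_eq_succ l with rfl | ⟨k', rfl⟩
    · exact absurd hil (Fin.not_lt_zero i)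
    rcases Fin.eq_zero_or_eq_succ i with rfl | ⟨k, rfl⟩
    · simp only [hv, hw, Fin.cons_zero, Fin.cons_succ]
      have h1 : v0 / c < wq k' := lt_of_lt_of_le (by linarith) (hqC k')
      rw [div_lt_iff₀ hc0] at h1
      linarith
    · simp only [hv, hw, Fin.cons_succ]
      have h1 := hsep k k' (Fin.succ_lt_succ_iff.1 hil)
      have h2 : 1 / (θ * c) * wq k < C * wq k := mul_lt_mul_of_pos_right (by linarith) (hwq0 k)
      have h3 : 1 / (θ * c) * wq k < wq k' := h2.trans_le h1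
      rw [div_mul_eq_mul_div, one_mul, div_lt_iff₀ (by positivity)] at h3
      rw [div_lt_iff₀ hθ]
      linarith
  obtain ⟨H0, hH0⟩ := hZE (K := K) hm hS hμ1 hμ2
    (by
      simp only [hw, hv, Fin.cons_zero]
      linarith) hsep'
  set Wq := ∏ k, wq k with hWq
  have hWq0 : 0 < Wq := Finset.prod_pos fun k _ => hwq0 k
  have hPv : ∏ i, v i = v0 * (Wq / θ ^ m) := by
    rw [Fin.prod_univ_succ]
    simp only [hv, Fin.cons_zero, Fin.cons_succ]
    rw [Finset.prod_div_distrib, Finset.prod_const, Finset.card_univ, Fintype.card_fin]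
  have hPv0 : 0 < ∏ i, v i := Finset.prod_pos fun i _ => hvpos i
  obtain ⟨H1, hH1⟩ := eventually_log_le (K / ((m + 1).factorial * ∏ i, v i)) (∑ i, v i)
    (((m + 1 : ℕ) : ℝ) * Real.log 2) η (m + 1) (by positivity)
    (Finset.sum_nonneg fun i _ => (hvpos i).le) hη
  obtain ⟨H2, hH2⟩ := eventually_shift_le (ν * A ^ (m + 1) * v0) (η * K * θ ^ m)
    ((1 + ∑ k, ν * wq k) / (ν * A)) (m + 1) hNM
  set H := max (max H0 H1) (max H2 1) with hH
  have hHH0 : H0 ≤ H := (le_max_left _ _).trans (le_max_left _ _)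
  have hHH1 : H1 ≤ H := (le_max_right _ _).trans (le_max_left _ _)
  have hHH2 : H2 ≤ H := (le_max_left _ _).trans (le_max_right _ _)
  have hH1' : 1 ≤ H := (le_max_right _ _).trans (le_max_right _ _)
  have hHpos : 0 < H := by linarith
  obtain ⟨col, hcol, hdet⟩ := hH0 H hHH0
  have hcard : (Fintype.card (Fin K × ↥(simplex v H)) : ℝ) = K * (simplex v H).card := by
    rw [Fintype.card_prod, Fintype.card_fin, Fintype.card_coe]
    push_cast
    rfl
  have hlo := card_simplex_lower hvpos hHpos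
  have hhi := card_simplex_upper hvpos hHpos.le
  rw [Fintype.card_fin] at hlo hhi
  set M : ℝ := (Fintype.card (Fin K × ↥(simplex v H)) : ℝ) with hM
  have hMlo : K * (H ^ (m + 1) / ((m + 1).factorial * ∏ i, v i)) ≤ M := by
    rw [hcard]
    gcongr
  have hMpos : 0 < M := lt_of_lt_of_le (by positivity) hMlo
  have hMhi : M ≤ K / ((m + 1).factorial * ∏ i, v i) * (H + ∑ i, v i) ^ (m + 1) := by
    rw [hcard]
    calc (K : ℝ) * (simplex v H).card
        ≤ K * ((H + ∑ i, v i) ^ (m + 1) / ((m + 1).factorial * ∏ i, v i)) := by gcongr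
      _ = _ := by ring
  have : Nonempty (Fin K × ↥(simplex v H)) := by
    rw [← Fintype.card_pos_iff]
    rw [hM] at hMpos
    exact_mod_cast hMpos
  set Z := ν * A * H with hZ
  have hν0 : 0 < ν := by linarith
  have hZ0 : 0 ≤ Z := by positivity
  set Nr : ℝ := (Z + (1 + ∑ k, ν * wq k)) ^ (m + 1) /
    ((m + 1).factorial * (1 * ∏ k, ν * wq k)) with hNr
  have hNrM : Nr ≤ η * M := by
    have h1 : Z + (1 + ∑ k, ν * wq k) = ν * A * (H + (1 + ∑ k, ν * wq k) / (ν * A)) := by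
      rw [hZ]
      field_simp
    have h2 : ∏ k, ν * wq k = ν ^ m * Wq := by
      rw [Finset.prod_mul_distrib, Finset.prod_const, Finset.card_univ, Fintype.card_fin]
    have h3 := hH2 H hHH2
    have hv00 : 0 < v0 := by linarith
    calc Nr = ν * A ^ (m + 1) * v0 * (H + (1 + ∑ k, ν * wq k) / (ν * A)) ^ (m + 1) /
          ((m + 1).factorial * (v0 * Wq)) := by
          rw [hNr, h1, h2, mul_pow, mul_pow, pow_succ ν]
          field_simp
      _ ≤ η * K * θ ^ m * H ^ (m + 1) / ((m + 1).factorial * (v0 * Wq)) := by gcongr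
      _ = η * (K * (H ^ (m + 1) / ((m + 1).factorial * ∏ i, v i))) := by
          rw [hPv]
          field_simp
      _ ≤ η * M := by gcongr
  have hNr0 : 0 ≤ Nr := by
    have : 0 ≤ ∑ k, ν * wq k := Finset.sum_nonneg fun k _ => (mul_pos hν0 (hwq0 k)).le
    have : 0 < ∏ k, ν * wq k := Finset.prod_pos fun k _ => mul_pos hν0 (hwq0 k)
    positivity
  have hineq := minor_ineq (K := K) p q T ν ν₁ θ η φ lam v0 w0 H Z ⌊Nr⌋₊ (by linarith) hθ hη
    (by linarith) hZ0 hR hφ hlam hlamv hlam1 (fun k => (hpq k).1) (fun k => (hpq k).2) hT1 hT2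
    (fun k => by
      have h1 : 6 / η ≤ wq k := le_trans (by linarith) (hqC k)
      rw [div_le_iff₀ hη] at h1
      simp only [hwq] at h1
      linarith)
    (fun k => by
      have h1 : |L8| / η ≤ wq k := le_trans (by linarith) (hqC k)
      rw [div_le_iff₀ hη] at h1
      simp only [hwq] at h1
      have := le_abs_self L8
      linarith)
    (fun k => by
      have h1 : |L2| / (ν₁ - ν) ≤ wq k := le_trans (by linarith) (hqC k)
      rw [div_le_iff₀ hνν] at h1
      simp only [hwq] at h1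
      have := le_abs_self L2
      linarith)
    (fun ρ : Fin K × ↥(simplex v H) => (ρ.1 : ℕ)) (fun ρ => ρ.1.2) (fun ρ => ρ.2.1) col
    (fun ρ => by
      have h1 := lt_of_mem_simplex ρ.2.2
      rw [wt, Fin.sum_univ_succ] at h1
      exact h1.le)
    (fun c => by
      have h1 := hcol c
      rw [wt, Fin.sum_univ_succ] at h1
      exact h1)
    (fun F hF => by
      refine Nat.le_floor (An.card_le_simplex_prod (fun k => ν * wq k)
        (fun k => mul_pos hν0 (hwq0 k)) 1 one_pos Z hZ0 F fun a ha => ?_)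
      have h1 := (hF a ha).le
      rw [Finset.mul_sum] at h1
      simpa only [mul_assoc] using h1)
    hdet
  have hlog := hH1 H hHH1 M hMpos hMhi
  have hN : (⌊Nr⌋₊ : ℝ) ≤ η * M := (Nat.floor_le hNr0).trans hNrM
  rw [← hM] at hineq
  have e1 : Z * (M - η * M) ≤ Z * (M - ⌊Nr⌋₊) := by gcongr
  have e2 : M * (Real.log M + ((m + 1 : ℕ) : ℝ) * Real.log 2 + (1 + 3 * η) * H +
      (η + (ν - 1) * θ) * H) ≤ M * (η * H + (1 + 3 * η) * H + (η + (ν - 1) * θ) * H) := by
    gcongr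
  have e3 : (1 + (ν - 1) * θ + 8 * η) * (M * H) ≤ ν * A * (1 - η) * (M * H) := by gcongr
  have e4 : 0 < η * (M * H) := by positivity
  rw [hZ] at e1 hineq
  exact final_ineq hmain e4 (e1.trans (hineq.trans e2)) e3

/-- Only finitely many rational numbers approximate `π` to an order larger than two, given the
existence of nonzero minors. -/
theorem finite_approx_of (hZE : MinorStatement) {ν : ℝ} (hν : 2 < ν) :
    {pq : ℤ × ℤ | IsCoprime pq.1 pq.2 ∧ 2 ≤ pq.2 ∧
      0 < |Real.pi - (pq.1 : ℝ) / (pq.2 : ℝ)| ∧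
      |Real.pi - (pq.1 : ℝ) / (pq.2 : ℝ)| < (pq.2 : ℝ) ^ (-ν)}.Finite := by
  by_contra hinf
  refine core hZE ν hν fun C => ?_
  obtain ⟨pq, hpq, hC⟩ := unbounded_of_infinite Real.pi ν (by linarith) _ hinf
    (fun pq h => ⟨h.2.1, h.2.2.2⟩) C
  obtain ⟨-, h2, -, h4⟩ := hpq
  obtain ⟨q, hq⟩ := Int.eq_ofNat_of_zero_le (show 0 ≤ pq.2 by omega)
  have hq0 : 0 < q := by omega
  have hq0' : (0 : ℝ) < q := by exact_mod_cast hq0
  rw [hq, Int.cast_natCast] at hC h4
  refine ⟨pq.1, q, hC, hq0, ?_⟩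
  rw [Real.rpow_def_of_pos hq0'] at h4
  rw [show -(ν * Real.log q) = Real.log q * -ν by ring]
  exact h4.le

end Vale.Agent.P021Z.Ar
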